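import Mathlib

/-!
# P226, pool job GEN-L1 (helper99): rotation-invariant measures and homogeneous functions

A finite measure `μ` on a finite-dimensional real inner product space that is invariant under
all linear isometries integrates positively 1-homogeneous functions like the standard Gaussian:
`(∫ ‖g‖ dγ) * ∫ h dμ = (∫ ‖w‖ dμ) * ∫ h dγ`.

Proof: for independent `w ~ μ` and `g ~ γ` the vectors `‖g‖ • w` and `‖w‖ • g` have the same
law (`map_norm_smul_eq`), because their characteristic functions agree: both are equal to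
`∫ w, charFun γ (‖w‖ • t) ∂μ`, by Fubini and the invariance of `charFun μ` and `charFun γ`
under linear isometries.  Integrating `h` against the two laws gives the two sides.
-/

open MeasureTheory ProbabilityTheory

namespace Vale.Agent.Lib.P226.H99

open Complex

/-- A unimodular exponential of a measurable real function is integrable for a finite
measure. -/
theorem integrable_cexp_mul_I {X : Type*} [MeasurableSpace X] (ν : Measure X)
    [IsFiniteMeasure ν] (φ : X → ℝ) (hφ : Measurable φ) :
    Integrable (fun x => cexp ((φ x : ℂ) * I)) ν := by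
  refine Integrable.of_bound ?_ 1 (ae_of_all _ fun x => ?_)
  · exact (Complex.measurable_exp.comp
      ((Complex.measurable_ofReal.comp hφ).mul_const I)).aestronglyMeasurable
  · rw [Complex.norm_exp_ofReal_mul_I]

section

variable {E : Type*} [NormedAddCommGroup E] [InnerProductSpace ℝ E]
    [FiniteDimensional ℝ E] [MeasurableSpace E] [BorelSpace E]

/-- The characteristic function of a measure that is invariant under the linear isometries
depends only on the norm of its argument. -/
theorem charFun_eq_of_norm_eq (μ : Measure E) (hμ : ∀ U : E ≃ₗᵢ[ℝ] E, μ.map U = μ)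
    {t t' : E} (h : ‖t‖ = ‖t'‖) : charFun μ t = charFun μ t' := by
  have hU : (Submodule.span ℝ {t - t'})ᗮ.reflection t = t' := Submodule.reflection_sub h
  have h1 : charFun μ t'
      = charFun (μ.map ((Submodule.span ℝ {t - t'})ᗮ.reflection))
          ((Submodule.span ℝ {t - t'})ᗮ.reflection t) := by
    rw [hμ, hU]
  rw [h1, charFun_apply, charFun_apply,
    integral_map (LinearIsometryEquiv.continuous _).measurable.aemeasurable
      (Measurable.aestronglyMeasurable (by fun_prop))]
  refine integral_congr_ae (ae_of_all _ fun w => ?_)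
  show cexp ((inner ℝ w t : ℂ) * I)
    = cexp ((inner ℝ ((Submodule.span ℝ {t - t'})ᗮ.reflection w)
        ((Submodule.span ℝ {t - t'})ᗮ.reflection t) : ℂ) * I)
  rw [LinearIsometryEquiv.inner_map_map]

/-- The characteristic function of the law of `‖w‖ • g` for independent `w ~ μ`, `g ~ γ`. -/
theorem charFun_map_norm_smul (μ γ : Measure E) [IsFiniteMeasure μ] [IsFiniteMeasure γ]
    (t : E) :
    charFun ((μ.prod γ).map (fun p : E × E => ‖p.1‖ • p.2)) t
      = ∫ w, charFun γ (‖w‖ • t) ∂μ := by
  have hm : Measurable (fun p : E × E => ‖p.1‖ • p.2) := by fun_prop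
  rw [charFun_apply, integral_map hm.aemeasurable (Measurable.aestronglyMeasurable (by fun_prop))]
  rw [integral_prod _ (integrable_cexp_mul_I (μ.prod γ)
    (fun p : E × E => inner ℝ (‖p.1‖ • p.2) t) (by fun_prop))]
  refine integral_congr_ae (ae_of_all _ fun w => ?_)
  show ∫ g, cexp ((inner ℝ (‖w‖ • g) t : ℂ) * I) ∂γ = charFun γ (‖w‖ • t)
  rw [charFun_apply]
  refine integral_congr_ae (ae_of_all _ fun g => ?_)
  show cexp ((inner ℝ (‖w‖ • g) t : ℂ) * I) = cexp ((inner ℝ g (‖w‖ • t) : ℂ) * I)
  rw [real_inner_smul_left, real_inner_smul_right]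

/-- Fubini: the two characteristic functions are in duality. -/
theorem charFun_swap (μ γ : Measure E) [IsFiniteMeasure μ] [IsFiniteMeasure γ] (s : ℝ) :
    ∫ g, charFun μ (s • g) ∂γ = ∫ w, charFun γ (s • w) ∂μ := by
  have h1 : ∀ g : E, charFun μ (s • g) = ∫ w, cexp ((inner ℝ w (s • g) : ℂ) * I) ∂μ :=
    fun g => charFun_apply _
  have h2 : ∀ w : E, charFun γ (s • w) = ∫ g, cexp ((inner ℝ w (s • g) : ℂ) * I) ∂γ := by
    intro w
    rw [charFun_apply]
    refine integral_congr_ae (ae_of_all _ fun g => ?_)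
    show cexp ((inner ℝ g (s • w) : ℂ) * I) = cexp ((inner ℝ w (s • g) : ℂ) * I)
    rw [real_inner_smul_right, real_inner_smul_right, real_inner_comm]
  rw [integral_congr_ae (ae_of_all _ h1), integral_congr_ae (ae_of_all _ h2)]
  exact integral_integral_swap (f := fun (g : E) (w : E) => cexp ((inner ℝ w (s • g) : ℂ) * I))
    (integrable_cexp_mul_I (γ.prod μ) (fun p : E × E => inner ℝ p.2 (s • p.1)) (by fun_prop))

/-- For independent `w ~ μ` (invariant under the linear isometries) and `g` standard Gaussian,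
the vectors `‖g‖ • w` and `‖w‖ • g` have the same law. -/
theorem map_norm_smul_eq (μ : Measure E) [IsFiniteMeasure μ]
    (hμ : ∀ U : E ≃ₗᵢ[ℝ] E, μ.map U = μ) :
    (μ.prod (stdGaussian E)).map (fun p : E × E => ‖p.2‖ • p.1)
      = (μ.prod (stdGaussian E)).map (fun p : E × E => ‖p.1‖ • p.2) := by
  have h1 : (μ.prod (stdGaussian E)).map (fun p : E × E => ‖p.2‖ • p.1)
      = ((stdGaussian E).prod μ).map (fun p : E × E => ‖p.1‖ • p.2) := by
    have hsw : μ.prod (stdGaussian E) = ((stdGaussian E).prod μ).map Prod.swap :=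
      (Measure.prod_swap).symm
    rw [hsw, Measure.map_map (by fun_prop) measurable_swap]
    rfl
  apply Measure.ext_of_charFun
  funext t
  rw [h1, charFun_map_norm_smul, charFun_map_norm_smul]
  calc ∫ g, charFun μ (‖g‖ • t) ∂(stdGaussian E)
      = ∫ g, charFun μ (‖t‖ • g) ∂(stdGaussian E) := by
        refine integral_congr_ae (ae_of_all _ fun g => ?_)
        refine charFun_eq_of_norm_eq μ hμ ?_
        rw [norm_smul, norm_smul, norm_norm, norm_norm, mul_comm]
    _ = ∫ w, charFun (stdGaussian E) (‖t‖ • w) ∂μ := charFun_swap μ (stdGaussian E) ‖t‖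
    _ = ∫ w, charFun (stdGaussian E) (‖w‖ • t) ∂μ := by
        refine integral_congr_ae (ae_of_all _ fun w => ?_)
        show charFun (stdGaussian E) (‖t‖ • w) = charFun (stdGaussian E) (‖w‖ • t)
        rw [charFun_stdGaussian, charFun_stdGaussian, norm_smul, norm_smul, norm_norm,
          norm_norm, mul_comm]

/-- The identity for a measurable positively 1-homogeneous function, with no integrability
assumption (Bochner integrals, with their convention for non-integrable functions). -/
theorem invariant_integral_hom_gen (μ : Measure E) [IsFiniteMeasure μ]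
    (hμ : ∀ U : E ≃ₗᵢ[ℝ] E, μ.map U = μ)
    (h : E → ℝ) (hmeas : Measurable h)
    (hhom : ∀ (t : ℝ), 0 ≤ t → ∀ x, h (t • x) = t * h x) :
    (∫ g, ‖g‖ ∂(stdGaussian E)) * ∫ w, h w ∂μ
      = (∫ w, ‖w‖ ∂μ) * ∫ g, h g ∂(stdGaussian E) := by
  have key := map_norm_smul_eq μ hμ
  have hL : ∫ x, h x ∂((μ.prod (stdGaussian E)).map (fun p : E × E => ‖p.2‖ • p.1))
      = (∫ g, ‖g‖ ∂(stdGaussian E)) * ∫ w, h w ∂μ := by
    have hm : Measurable (fun p : E × E => ‖p.2‖ • p.1) := by fun_prop
    rw [integral_map hm.aemeasurable hmeas.aestronglyMeasurable]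
    have e : ∀ p : E × E, h (‖p.2‖ • p.1) = h p.1 * ‖p.2‖ := fun p => by
      rw [hhom _ (norm_nonneg _), mul_comm]
    rw [integral_congr_ae (ae_of_all _ e), integral_prod_mul, mul_comm]
  have hR : ∫ x, h x ∂((μ.prod (stdGaussian E)).map (fun p : E × E => ‖p.1‖ • p.2))
      = (∫ w, ‖w‖ ∂μ) * ∫ g, h g ∂(stdGaussian E) := by
    have hm : Measurable (fun p : E × E => ‖p.1‖ • p.2) := by fun_prop
    rw [integral_map hm.aemeasurable hmeas.aestronglyMeasurable]
    have e : ∀ p : E × E, h (‖p.1‖ • p.2) = ‖p.1‖ * h p.2 := fun p =>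
      hhom _ (norm_nonneg _) _
    rw [integral_congr_ae (ae_of_all _ e), integral_prod_mul]
  rw [← hL, ← hR, key]

end

/-- A finite measure that is invariant under the linear isometries integrates positively
1-homogeneous functions like the standard Gaussian. -/
theorem invariant_integral_hom {E : Type*} [NormedAddCommGroup E] [InnerProductSpace ℝ E]
    [FiniteDimensional ℝ E] [MeasurableSpace E] [BorelSpace E]
    (μ : Measure E) [IsFiniteMeasure μ]
    (hμ : ∀ U : E ≃ₗᵢ[ℝ] E, μ.map U = μ)
    (hint : Integrable (fun w : E => ‖w‖) μ)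
    (h : E → ℝ) (hmeas : Measurable h)
    (hhom : ∀ (t : ℝ), 0 ≤ t → ∀ x, h (t • x) = t * h x)
    (C : ℝ) (hC : ∀ x, |h x| ≤ C * ‖x‖) :
    (∫ g, ‖g‖ ∂(stdGaussian E)) * ∫ w, h w ∂μ
      = (∫ w, ‖w‖ ∂μ) * ∫ g, h g ∂(stdGaussian E) := by
  have _h1 := hint
  have _h2 := hC
  exact invariant_integral_hom_gen μ hμ h hmeas hhom

end Vale.Agent.Lib.P226.H99
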